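import Vale.Agent.Lib.P204F.Bridge

/-!
# P204 (Donaldson's tamed-to-compatible question) on the four-tori `V / Λ`

`V` is a real vector space, `b : Basis (Fin 4) ℝ V`, `Λ` the lattice spanned by `b`. Almost complex
structures and two-forms on `V / Λ` are `Λ`-periodic tensor fields on `V`, closedness is
`extDeriv Ω = 0`.

For every smooth almost complex structure `J` on the torus `V / Λ`:

1. if `J` is invariant under the three-dimensional subtorus of translations generated by
   `b 1, b 2, b 3`, then tamed implies compatible: if some symplectic form (invariant or not) tames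
   `J`, then some symplectic form is compatible with `J`;
2. if the projection to the two-torus with coordinates `0, 1` is pseudoholomorphic for the standard
   complex structure of the base and `J` is standard on the fibres, then some symplectic form is
   compatible with `J` (and `J` may depend on all four coordinates).
-/

open Matrix P204F

namespace Vale.Agent.Results.P204.FlatTori

theorem result {V : Type} [NormedAddCommGroup V] [NormedSpace ℝ V] (b : Module.Basis (Fin 4) ℝ V)
    (J : V → V →L[ℝ] V) (hJ : AlmostComplex b J) :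
    ((∀ i : Fin 4, i ≠ 0 → ∀ (x : V) (t : ℝ), J (x + t • b i) = J x) →
      (∃ Ω, SymplecticForm b Ω ∧ Tames Ω J) → ∃ Ω, SymplecticForm b Ω ∧ Compatible Ω J) ∧
    ((∀ x v, b.repr (J x v) 0 = -b.repr v 1) → (∀ x, J x (b 2) = b 3) →
      ∃ Ω, SymplecticForm b Ω ∧ Compatible Ω J) := by
  have hA := mJ_acs hJ
  constructor
  · rintro hinv ⟨Ω, hO, hT⟩
    obtain ⟨W, hW, hC⟩ := _root_.P204.familyA hA (fun x y hxy => by
      have h1 : ∀ (t1 t2 t3 : ℝ) (z : V), J (z + t1 • b 1 + t2 • b 2 + t3 • b 3) = J z :=
        fun t1 t2 t3 z => by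
          rw [hinv 3 (by decide), hinv 2 (by decide), hinv 1 (by decide)]
      have h2 : (co b).symm x = (co b).symm y + (x 1 - y 1) • b 1 + (x 2 - y 2) • b 2 +
          (x 3 - y 3) • b 3 := by
        rw [co_symm, co_symm, Fin.sum_univ_four, Fin.sum_univ_four, hxy]
        module
      ext i j
      simp only [mJ, Matrix.of_apply]
      rw [h2, h1]) (mW_symplectic hO) (mW_tames hT)
    exact ⟨form b W, form_symplectic hW, form_compatible hW.2.1 hC⟩
  · intro h0 h2
    have k0 : ∀ x v, (mJ b J x *ᵥ v) 0 = -v 1 := by
      intro x v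
      rw [mJ_mulVec, co_apply, h0, ← co_apply, ContinuousLinearEquiv.apply_symm_apply]
    have k2 : ∀ x, mJ b J x *ᵥ Pi.single 2 1 = Pi.single 3 1 := by
      intro x
      rw [mJ_mulVec, co_symm_single, h2, co_b]
    have hAs : _root_.P204.S fun x => mJ b J x 2 1 := hA.1.1 2 1
    have hBs : _root_.P204.S fun x => -mJ b J x 2 0 := (hA.1.1 2 0).neg
    have pA : _root_.P204.Per fun x => mJ b J x 2 1 := fun x n => by
      show mJ b J _ 2 1 = mJ b J _ 2 1
      rw [hA.1.2 x n]
    have pB : _root_.P204.Per fun x => -mJ b J x 2 0 := fun x n => by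
      show -mJ b J _ 2 0 = -mJ b J _ 2 0
      rw [hA.1.2 x n]
    obtain ⟨W, hW, hC⟩ := _root_.P204.familyB hAs hBs pA pB
    have hEq : _root_.P204.JAB (fun x => mJ b J x 2 1) (fun x => -mJ b J x 2 0) = mJ b J := by
      funext x
      exact (_root_.P204.J_form hA k0 k2 x).symm
    rw [hEq] at hC
    exact ⟨form b W, form_symplectic hW, form_compatible hW.2.1 hC⟩

end Vale.Agent.Results.P204.FlatTori
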