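import Vale.Agent.Lib.P204.MainA
import Vale.Agent.Lib.P204.MainB

/-!
# P204 (Donaldson's tamed-to-compatible question): two families of almost complex structures on the
four-torus, where `b₂⁺ = 3`

An almost complex structure or a two-form on `T⁴ = ℝ⁴ / ℤ⁴` is a smooth `ℤ⁴`-periodic matrix function
on `ℝ⁴` (`P204.IsACS`, `P204.Symplectic`); `P204.Tames` and `P204.Compatible` are as in the problem.

* If `J` depends on one coordinate only (equivalently, is invariant under a three-torus of
  translations) and some symplectic form on `T⁴`, invariant or not, tames `J`, then some symplectic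
  form is compatible with `J`.
* If the projection of `T⁴` to the torus of the first two coordinates is pseudoholomorphic for the
  standard complex structure of the base and the fibres are standard, then some symplectic form is
  compatible with `J`. Here `J` may depend on all four coordinates.
-/

open Matrix P204

namespace Vale.Agent.Results.P204.TorusFamilies

theorem result :
    (∀ J : R4 → Matrix (Fin 4) (Fin 4) ℝ, IsACS J → (∀ x y : R4, x 0 = y 0 → J x = J y) →
      (∃ W, Symplectic W ∧ Tames W J) → ∃ W, Symplectic W ∧ Compatible W J) ∧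
    (∀ J : R4 → Matrix (Fin 4) (Fin 4) ℝ, IsACS J → (∀ x v, (J x *ᵥ v) 0 = -v 1) →
      (∀ x, J x *ᵥ Pi.single 2 1 = Pi.single 3 1) → ∃ W, Symplectic W ∧ Compatible W J) := by
  constructor
  · rintro J hJ hinv ⟨W, hW, hT⟩
    exact familyA hJ hinv hW hT
  · intro J hJ h0 h2
    have hA : S fun x => J x 2 1 := hJ.1.1 2 1
    have hB : S fun x => -J x 2 0 := (hJ.1.1 2 0).neg
    have pA : Per fun x => J x 2 1 := fun x n => by
      show J _ 2 1 = J _ 2 1
      rw [hJ.1.2 x n]
    have pB : Per fun x => -J x 2 0 := fun x n => by
      show -J _ 2 0 = -J _ 2 0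
      rw [hJ.1.2 x n]
    obtain ⟨W, hW, hC⟩ := familyB hA hB pA pB
    have hEq : JAB (fun x => J x 2 1) (fun x => -J x 2 0) = J := by
      funext x
      exact (J_form hJ h0 h2 x).symm
    rw [hEq] at hC
    exact ⟨W, hW, hC⟩

end Vale.Agent.Results.P204.TorusFamilies
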